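import Vale.Agent.P366FN.Gl
import Vale.Agent.P366SB.Bch

/-!
# P366FN: the set `U` is the interior of the domain
-/

open Set Filter Topology Metric
open scoped ContDiff
open Vale.Agent.P366M Vale.Agent.P366DV

noncomputable section

namespace Vale.Agent.P366FN

variable {n : ℕ} {M : Type} [Mfe n M] {D : Exterior n M} {U : Set M} {V : M → ℝ} {v : ℝ} {x : M}

theorem cpt_fr (hU : IsOpen U) (hf : ∃ R, ∀ x : M, R < ‖px x‖ → x ∈ U) :
    IsCompact (frontier U) := by
  obtain ⟨R, hR⟩ := hf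
  refine (isCompact_px M R).of_isClosed_subset isClosed_frontier fun x hx => ?_
  rw [hU.frontier_eq] at hx
  exact show ‖px x‖ ≤ R from not_lt.1 fun k => hx.2 (hR x k)

theorem ne_U (D : Exterior n M) (hf : ∃ R, ∀ x : M, R < ‖px x‖ → x ∈ U) : U.Nonempty := by
  obtain ⟨R, hR⟩ := hf
  obtain ⟨x, hx⟩ := D.bdry
  obtain ⟨i, -⟩ := D.dom.2.1 x hx
  have e : ‖(EuclideanSpace.single i (|R| + R0 M) : P366.Stmt.E n)‖ = |R| + R0 M := by
    rw [PiLp.norm_single, Real.norm_of_nonneg (by linarith [abs_nonneg R, R0_ge M])]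
  refine ⟨yp (EuclideanSpace.single i (|R| + R0 M)), hR _ ?_⟩
  rw [px_yp (by rw [e]; linarith [abs_nonneg R]), e]
  linarith [le_abs_self R, R0_ge M]

theorem cl_nn (h : ∀ x ∈ U, 0 < D.F x) (hx : x ∈ closure U) : 0 ≤ D.F x :=
  closure_minimal (fun z hz => (h z hz).le) (isClosed_le continuous_const D.dom.1.cont) hx

/-- the frontier lies in the boundary or is disjoint from it -/
theorem dich (hU : IsOpen U) (hE : ∀ x ∈ frontier U, Edge D U x) (ho : Out U V v)
    (hV : ContinuousOn V U) (ht : ∃ t > v, ∃ R, ∀ x : M, R < ‖px x‖ → t ≤ V x)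
    (hc : ∀ t, IsPreconnected {x ∈ U | V x < t}) :
    (∀ x ∈ frontier U, D.F x = 0) ∨ ∀ x ∈ frontier U, D.F x ≠ 0 := by
  by_contra k
  push Not at k
  obtain ⟨⟨b, b1, b2⟩, a, a1, a2⟩ := k
  have cA : IsClosed (frontier U ∩ {x | D.F x = 0}) :=
    isClosed_frontier.inter (isClosed_eq D.dom.1.cont continuous_const)
  have cB : IsClosed (frontier U ∩ {x | D.F x ≠ 0}) := by
    refine isClosed_iff_frequently.2 fun x hx => ?_
    have x1 : x ∈ frontier U := isClosed_iff_frequently.1 isClosed_frontier x (hx.mono fun _ r => r.1)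
    refine ⟨x1, fun x0 => ?_⟩
    obtain ⟨u, h1, -⟩ := hE x x1
    obtain ⟨z, h2, h3⟩ := (hx.and_eventually h1.eventually_nhds).exists
    exact h2.2 (h3.self_of_nhds.2.2.2 x0 (zero_fr hU h2.1 h3.self_of_nhds.1.continuousAt
      (h3.mono fun _ r => r.2.1)))
  obtain ⟨A, B, oA, oB, sA, sB, dj⟩ := normal_separation cA cB
    (disjoint_left.2 fun x h1 h2 => h2.2 h1.2)
  obtain ⟨t, t0, R, hR⟩ := ht
  have sub : ∀ x ∈ closure U, x ∉ A ∪ B → x ∈ U := fun x h1 h2 => by
    rcases tri hU x with r | r | r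
    · exact r
    · exact absurd ((em (D.F x = 0)).elim (fun s => Or.inl (sA ⟨r, s⟩))
        fun s => Or.inr (sB ⟨r, s⟩)) h2
    · exact absurd h1 r
  have cp : IsCompact ({x : M | ‖px x‖ ≤ R} ∩ (closure U ∩ (A ∪ B)ᶜ)) :=
    (isCompact_px M R).inter_right (isClosed_closure.inter (oA.union oB).isClosed_compl)
  obtain ⟨s, s0, hs⟩ := cp.exists_forall_le' (a := v) (hV.mono fun x hx => sub x hx.2.1 hx.2.2)
    fun x hx => ho.gt x (sub x hx.2.1 hx.2.2)
  have m0 : v < min s t := lt_min s0 t0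
  have meet : ∀ O, IsOpen O → ∀ p ∈ frontier U, p ∈ O → ({x ∈ U | V x < min s t} ∩ O).Nonempty :=
    fun O hO p p1 p2 => by
      rw [hU.frontier_eq] at p1
      obtain ⟨z, z1, z2, z3, z4⟩ := ((mem_closure_iff_frequently.1 p1.1).and_eventually
        ((hO.eventually_mem p2).and (((ho.cpt _ m0 (‖px p‖ + 1)).isClosed.isOpen_compl.eventually_mem
          fun r => p1.2 r.1).and (ev_px_lt (lt_add_one ‖px p‖))))).exists
      exact ⟨z, ⟨z1, not_le.1 fun r => z3 ⟨z1, r, z4.le⟩⟩, z2⟩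
  obtain ⟨z, -, z1, z2⟩ := hc (min s t) A B oA oB (fun x hx => by
    by_contra r
    by_cases q : ‖px x‖ ≤ R
    · exact (hx.2.trans_le (min_le_left _ _)).not_ge (hs x ⟨q, subset_closure hx.1, r⟩)
    · exact (hx.2.trans_le (min_le_right _ _)).not_ge (hR x (not_le.1 q)))
    (meet A oA a a1 (sA ⟨a1, a2⟩)) (meet B oB b b1 (sB ⟨b1, b2⟩))
  exact disjoint_left.1 dj z1 z2

/-- half balls at the boundary -/
theorem half (D : Exterior n M) (hx : D.F x = 0) :
    ∃ N, IsOpen N ∧ x ∈ N ∧ IsPreconnected (N ∩ {z | 0 < D.F z}) := by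
  obtain ⟨i, hi⟩ := D.dom.2.1 x hx
  have : NeZero n := ⟨i.pos.ne'⟩
  obtain ⟨e, he, h1, h2, r, r0, h3⟩ := P366SB.bch D.dom.1 hx ⟨i, hi⟩
  refine ⟨e.symm '' ball 0 r, (openEmb_symm he).isOpenMap _ isOpen_ball,
    ⟨0, mem_ball_self r0, by rw [← h2, e.left_inv h1]⟩, ?_⟩
  have : e.symm '' ball 0 r ∩ {z | 0 < D.F z} = e.symm '' (ball 0 r ∩ {y | 0 < y 0}) := by
    ext z
    constructor
    · rintro ⟨⟨y, y1, rfl⟩, y2⟩
      exact ⟨y, ⟨y1, by rwa [mem_ofPred_eq, ← h3 y y1]⟩, rfl⟩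
    · rintro ⟨y, ⟨y1, y2⟩, rfl⟩
      exact ⟨⟨y, y1, rfl⟩, by rwa [mem_ofPred_eq, h3 y y1]⟩
  rw [this]
  exact ((convex_ball _ _).inter (convex_halfSpace_gt
    (EuclideanSpace.proj (𝕜 := ℝ) (0 : Fin n)).isLinear 0)).isPreconnected.image _
      (cont_symm he).continuousOn

/-- the frontier lies in the boundary -/
theorem case1 (hU : IsOpen U) (h : ∀ x ∈ U, 0 < D.F x) (ne : U.Nonempty)
    (hf : ∀ x ∈ frontier U, D.F x = 0) : U = {x | 0 < D.F x} := by
  have lc : ∀ x ∈ closure U, ∀ᶠ z in 𝓝 x, 0 ≤ D.F z → z ∈ closure U := fun x hx => by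
    rcases tri hU x with r | r | r
    · exact (hU.eventually_mem r).mono fun z hz _ => subset_closure hz
    · obtain ⟨N, oN, xN, cN⟩ := half D (hf x r)
      have sub : N ∩ {z | 0 < D.F z} ⊆ U := cN.subset_left_of_subset_union hU
        isClosed_closure.isOpen_compl (disjoint_compl_right_iff_subset.2 subset_closure)
        (fun z hz => ((tri hU z).imp_right fun s => s.resolve_left fun q => hz.2.ne' (hf z q)))
        (by
          obtain ⟨z, z1, z2⟩ := ((mem_closure_iff_frequently.1 hx).and_eventually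
            (oN.eventually_mem xN)).exists
          exact ⟨z, ⟨z2, h z z1⟩, z1⟩)
      filter_upwards [oN.eventually_mem xN] with z z1 z2
      rcases z2.eq_or_lt with q | q
      · exact mem_closure_iff_frequently.2 (((freqM (D.dom.1.diff z) q.symm
          (D.dom.2.1 z q.symm)).and_eventually (oN.eventually_mem z1)).mono
            fun y hy => sub ⟨hy.2, hy.1⟩)
      · exact subset_closure (sub ⟨z1, q⟩)
    · exact absurd hx r
  refine subset_antisymm h fun x hx => ?_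
  rcases tri hU x with r | r | r
  · exact r
  · exact absurd (hf x r) (ne_of_gt hx)
  · obtain ⟨p, hp⟩ := ne
    obtain ⟨z, z1, z2, z3⟩ := D.dom.2.2.1.2 {x | ∀ᶠ z in 𝓝 x, 0 ≤ D.F z → z ∈ closure U}
      (closure U)ᶜ isOpen_setOfPred_eventually_nhds isClosed_closure.isOpen_compl
      (fun z _ => (em (z ∈ closure U)).imp_left (lc z))
      ⟨p, (h p hp).le, lc p (subset_closure hp)⟩ ⟨x, show 0 ≤ D.F x from le_of_lt hx, r⟩
    exact absurd (Eventually.self_of_nhds z2 z1) z3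

/-- the frontier is disjoint from the boundary -/
theorem case2 (hU : IsOpen U) (h : ∀ x ∈ U, 0 < D.F x) (hE : ∀ x ∈ frontier U, Edge D U x)
    (hf : ∃ R, ∀ x : M, R < ‖px x‖ → x ∈ U) (hc : IsPreconnected U)
    (h0 : ∀ x ∈ frontier U, D.F x ≠ 0) : ¬Outer D := by
  obtain ⟨G, hG⟩ := ex_good hU (cpt_fr hU hf) fun p hp => by
    obtain ⟨u, h1, h2⟩ := hE p hp
    exact ⟨u, good_of hU (h1.mono fun _ r => ⟨r.1, r.2.1⟩) h2⟩
  have e : {x | 0 ≤ G x} = closure U := by
    ext x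
    refine ⟨fun k => by_contra fun r => ((hG x).neg r).not_ge k, fun k => ?_⟩
    rcases tri hU x with r | r | r
    · exact ((hG x).pos r).le
    · exact ((hG x).fr r).1.ge
    · exact absurd k r
  have z : ∀ x, G x = 0 → x ∈ frontier U := fun x k => by
    rcases tri hU x with r | r | r
    · exact absurd k ((hG x).pos r).ne'
    · exact r
    · exact absurd k ((hG x).neg r).ne
  refine fun k => k ⟨G, ⟨cd_of_cAt le_rfl fun x => (hG x).sm, fun x r => ((hG x).fr (z x r)).2,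
    e ▸ IsConnected.closure ⟨ne_U D hf, hc⟩, hf.imp fun R r x s => (hG x).pos (r x s)⟩,
    fun x r => ?_, fun x r => ?_⟩
  · have x1 : x ∈ closure U := e ▸ r
    rcases tri hU x with s | s | s
    · exact h x s
    · exact (cl_nn h x1).lt_of_ne' (h0 x s)
    · exact absurd x1 s
  · obtain ⟨u, h1, h2⟩ := hE x (z x r)
    have s := h1.self_of_nhds
    have u0 := zero_fr hU (z x r) s.1.continuousAt (h1.mono fun _ r => r.2.1)
    refine (touchM D.met (s.1.of_le two_le_oo) ((hG x).sm.of_le two_le_oo) h2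
      ((hG x).fr (z x r)).2 (h1.mono fun y hy q => ?_)).trans (s.2.2.1 u0)
    rw [r] at q
    rw [u0]
    exact (hy.2.1.1 ((hG y).mem hU q)).le

/-- **FIN** -/
theorem fin : FIN := fun _ _ _ D _ _ _ hO hU h hE ho hV ht hc hl =>
  (dich hU hE ho hV ht hl).elim (case1 hU h (ne_U D ho.far))
    fun k => absurd hO (case2 hU h hE ho.far hc k)

end Vale.Agent.P366FN
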