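import Vale.Agent.P366DV.Loc
import Vale.Agent.P366HP.Hopf0
import Vale.Agent.P366EN.Mots
import Vale.Agent.P366M.Inv2

/-!
# P366FN: a global defining function of an open set with smooth frontier
-/

open Set Filter Topology
open scoped ContDiff
open Vale.Agent.P366M

noncomputable section

namespace Vale.Agent.P366FN

variable {n : ℕ} {M : Type} [Mf0 n M] {g K : Fld n M} {f u w G : M → ℝ} {x : M} {U : Set M}

theorem dd_ne (h : ∃ i, pd i u x ≠ 0) : P366.T1.B526.dd (loc (ch x) u) (pt x) ≠ 0 :=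
  fun e => h.elim fun i hi => hi (congrFun e i)

/-- the touching lemma on the manifold -/
theorem touchM (hg : Met g) (hG : CAt 2 G x) (hu : CAt 2 u x) (dG : ∃ i, pd i G x ≠ 0)
    (du : ∃ i, pd i u x ≠ 0) (h : ∀ᶠ y in 𝓝 x, u x < u y → G x ≤ G y) :
    thetaPlus g K u x ≤ thetaPlus g K G x := by
  rw [← thetaPlus_pt, ← thetaPlus_pt]
  refine (P366HP.touch ((hg.rep (ch_mem x)).pos _) hG hu (dd_ne dG) (dd_ne du) ?_).2
  simp only [loc_pt]
  exact ev_pt.1 h

theorem freqM (hu : DAt u x) (h0 : u x = 0) (du : ∃ i, pd i u x ≠ 0) : ∃ᶠ z in 𝓝 x, 0 < u z :=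
  fun k => P366EN.freq hu ((loc_pt u x).trans h0) du (ev_pt.1 k)

theorem ev_ne (hu : CAt 1 u x) (du : ∃ i, pd i u x ≠ 0) : ∀ᶠ z in 𝓝 x, ∃ i, pd i u z ≠ 0 := by
  obtain ⟨i, hi⟩ := du
  have c : ContinuousAt (P366.Stmt.pd i (loc (ch x) u)) (pt x) :=
    (P366Z.contDiffAt_pd (k := 0) hu (by norm_num) i).continuousAt
  refine ev_pt.2 ?_
  filter_upwards [c.eventually_ne hi, ev_pt.1 (hu.eventually one_le_oo (by simp))] with y h1 h2
  by_contra k
  push Not at k
  exact h1 (by rw [pd_rep (ch_mem x) (h2.differentiableAt one_ne_zero)]; simp [repC, k])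

theorem ne_of_le (hG : CAt 2 G x) (hw : CAt 2 w x) (e : G x = w x) (dw : ∃ i, pd i w x ≠ 0)
    (h : ∀ᶠ z in 𝓝 x, w x < w z → w z ≤ G z) : ∃ i, pd i G x ≠ 0 := by
  have d1 := diff2 hG
  have d2 := diff2 hw
  obtain ⟨v, hv⟩ := P366HP.dd_ne d2 (dd_ne dw) 1
  have k := (P366.T1.B526.touch_jet (G := loc (ch x) fun z => G z - w z) (hG.sub hw) hw hv (by
    simp only [loc_pt]
    exact (ev_pt.1 h).mono fun y hy r => by
      rw [e, sub_self]; exact sub_nonneg.2 (hy r))).1
  by_contra c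
  push Not at c
  have k2 : fd (fun z => G z - w z) x v = -1 := by
    rw [fd_sub d1 d2, sub_apply, fderiv_eq_sum d1]
    simp only [c, mul_zero, Finset.sum_const_zero, zero_sub]
    exact congrArg _ hv
  exact absurd (k.trans_eq k2) (by norm_num)

/-- `f` is a defining function of `U` at `z` -/
structure Good (U : Set M) (f : M → ℝ) (z : M) : Prop where
  sm : CAt ∞ f z
  pos : z ∈ U → 0 < f z
  neg : z ∉ closure U → f z < 0
  fr : z ∈ frontier U → f z = 0 ∧ ∃ i, pd i f z ≠ 0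

theorem tri (hU : IsOpen U) (z : M) : z ∈ U ∨ z ∈ frontier U ∨ z ∉ closure U := by
  rw [hU.frontier_eq]
  by_cases h : z ∈ closure U
  · by_cases k : z ∈ U
    · exact .inl k
    · exact .inr (.inl ⟨h, k⟩)
  · exact .inr (.inr h)

theorem Good.mem (hU : IsOpen U) (h : Good U f x) (h0 : 0 < f x) : x ∈ U := by
  rcases tri hU x with k | k | k
  · exact k
  · exact absurd (h.fr k).1 h0.ne'
  · exact absurd (h.neg k) h0.le.not_gt

theorem zero_fr (hU : IsOpen U) (hx : x ∈ frontier U) (hu : ContinuousAt u x)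
    (h : ∀ᶠ z in 𝓝 x, z ∈ U ↔ 0 < u z) : u x = 0 := by
  rw [hU.frontier_eq] at hx
  refine le_antisymm (not_lt.1 fun k => hx.2 (h.self_of_nhds.2 k)) (not_lt.1 fun k => ?_)
  obtain ⟨z, h1, h2, h3⟩ := ((mem_closure_iff_frequently.1 hx.1).and_eventually
    (h.and (hu.eventually (gt_mem_nhds k)))).exists
  exact (h2.1 h1).not_gt h3

theorem good_of (hU : IsOpen U) (h : ∀ᶠ z in 𝓝 x, CAt ∞ u z ∧ (z ∈ U ↔ 0 < u z))
    (du : ∃ i, pd i u x ≠ 0) : ∀ᶠ z in 𝓝 x, Good U u z := by
  filter_upwards [h.eventually_nhds, ev_ne (h.self_of_nhds.1.of_le one_le_oo) du] with z h1 h2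
  have s := h1.self_of_nhds
  refine ⟨s.1, s.2.1, fun k => lt_of_le_of_ne (not_lt.1 fun r => k (subset_closure (s.2.2 r)))
    fun r => k ?_, fun k => ⟨zero_fr hU k s.1.continuousAt (h1.mono fun _ r => r.2), h2⟩⟩
  exact mem_closure_iff_frequently.2 (((freqM (s.1.differentiableAt (by simp)) r h2).and_eventually
    h1).mono fun y hy => hy.2.2.2 hy.1)

open Classical in
/-- the sign of `U` -/
def sg (U : Set M) (z : M) : ℝ := if z ∈ U then 1 else -1

theorem good_sg (hU : IsOpen U) (hx : x ∉ frontier U) : Good U (sg U) x := by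
  refine ⟨?_, fun k => by simp [sg, k], fun k => by
    simp [sg, show x ∉ U from fun r => k (subset_closure r)], fun k => absurd k hx⟩
  rcases tri hU x with k | k | k
  · exact (cAt_const (c := (1 : ℝ))).congr_of_eventuallyEq
      ((hU.eventually_mem k).mono fun z hz => by simp [sg, hz])
  · exact absurd k hx
  · exact (cAt_const (c := (-1 : ℝ))).congr_of_eventuallyEq
      ((isClosed_closure.isOpen_compl.eventually_mem k).mono fun z hz => by
        simp [sg, show z ∉ U from fun r => hz (subset_closure r)])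

theorem cvx_pos {t : Finset M} {c a : M → ℝ} {s : ℝ} (h0 : ∀ p, 0 ≤ c p)
    (h1 : ∀ p, c p ≠ 0 → 0 < a p) (h2 : ∑ p ∈ t, c p ≤ 1) (hs : 0 < s) :
    (∀ p, 0 ≤ c p * a p) ∧ 0 < ∑ p ∈ t, c p * a p + (1 - ∑ p ∈ t, c p) * s := by
  have k : ∀ p, 0 ≤ c p * a p := fun p => by
    by_cases r : c p = 0
    · rw [r, zero_mul]
    · exact mul_nonneg (h0 p) (h1 p r).le
  refine ⟨k, ?_⟩
  by_cases r : ∀ p ∈ t, c p = 0
  · rw [Finset.sum_eq_zero r, Finset.sum_eq_zero fun p hp => by rw [r p hp, zero_mul]]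
    linarith
  · push Not at r
    obtain ⟨p, hp, r⟩ := r
    have := Finset.sum_pos' (fun q (_ : q ∈ t) => k q)
      ⟨p, hp, mul_pos ((h0 p).lt_of_ne' r) (h1 p r)⟩
    have := mul_nonneg (sub_nonneg.2 h2) hs.le
    linarith

/-- **the global defining function** -/
theorem ex_good (hU : IsOpen U) (hc : IsCompact (frontier U))
    (h : ∀ p ∈ frontier U, ∃ u, ∀ᶠ z in 𝓝 p, Good U u z) : ∃ G, ∀ z, Good U G z := by
  have h' : ∀ p, ∃ u, ∀ᶠ z in 𝓝 p, Good U u z := fun p => by
    by_cases k : p ∈ frontier U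
    · exact h p k
    · exact ⟨sg U, (isClosed_frontier.isOpen_compl.eventually_mem k).mono fun z => good_sg hU⟩
  choose u hu using h'
  obtain ⟨t, χ, c1, c2, c3, c4, c5⟩ := exists_pou hc (fun p => {z | Good U (u p) z}) hu
  have gd : ∀ p z, χ p z ≠ 0 → Good U (u p) z := fun p z r => c2 p (subset_tsupport _ r)
  have s1 : ∀ p z, CAt ∞ (fun z => χ p z * u p z) z := fun p z => by
    by_cases k : z ∈ tsupport (χ p)
    · exact (CD.contDiffAt (c1 p)).mul (c2 p k).sm
    · exact (cAt_const (c := (0 : ℝ))).congr_of_eventuallyEq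
        ((notMem_tsupport_iff_eventuallyEq.1 k).mono fun y hy => by simp [hy])
  have s2 : ∀ z, CAt ∞ (fun z => ∑ p ∈ t, χ p z * u p z + (1 - ∑ p ∈ t, χ p z) * sg U z) z :=
    fun z => (CAt.sum fun p _ => s1 p z).add (by
      by_cases k : z ∈ frontier U
      · exact (cAt_const (c := (0 : ℝ))).congr_of_eventuallyEq
          ((c5 z k).mono fun y hy => by simp [hy])
      · exact (cAt_const.sub (CAt.sum fun p _ => CD.contDiffAt (c1 p))).mul (good_sg hU k).sm)
  have ps := fun z (k : z ∈ U) => cvx_pos (t := t) (s := sg U z) (fun p => c3 p z)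
    (fun p r => (gd p z r).pos k) (c4 z) (by simp [sg, k])
  refine ⟨_, fun z => ⟨s2 z, fun k => (ps z k).2, fun k => ?_, fun k => ?_⟩⟩
  · have := (cvx_pos (t := t) (s := -sg U z) (a := fun p => -u p z) (fun p => c3 p z)
      (fun p r => neg_pos.2 ((gd p z r).neg k)) (c4 z) (by
        simp [sg, show z ∉ U from fun r => k (subset_closure r)])).2
    simp only [mul_neg, Finset.sum_neg_distrib] at this
    linarith
  · have z0 : ∀ p, χ p z * u p z = 0 := fun p => by
      by_cases r : χ p z = 0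
      · rw [r, zero_mul]
      · rw [((gd p z r).fr k).1, mul_zero]
    have e1 := (c5 z k).self_of_nhds
    have e2 : ∑ p ∈ t, χ p z * u p z + (1 - ∑ p ∈ t, χ p z) * sg U z = 0 := by simp [z0, e1]
    refine ⟨e2, ?_⟩
    obtain ⟨p, hp, r⟩ := Finset.exists_ne_zero_of_sum_ne_zero (e1.trans_ne one_ne_zero)
    obtain ⟨u0, i, hi⟩ := (gd p z r).fr k
    refine ne_of_le ((s2 z).of_le two_le_oo) ((s1 p z).of_le two_le_oo) (e2.trans (z0 p).symm)
      ⟨i, ?_⟩ (Eventually.of_forall fun y hy => ?_)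
    · rw [pd_mul ((c1 p).diff z) ((gd p z r).sm.differentiableAt (by simp)), u0]
      simpa using ⟨r, hi⟩
    · rw [z0] at hy
      have r1 : χ p y ≠ 0 := fun e => by simp [e] at hy
      have k1 : y ∈ U := (gd p y r1).mem hU ((mul_pos_iff_of_pos_left ((c3 p y).lt_of_ne' r1)).1 hy)
      have := Finset.single_le_sum (fun q (_ : q ∈ t) => (ps y k1).1 q) hp
      have := mul_nonneg (sub_nonneg.2 (c4 y)) (show 0 ≤ sg U y by simp [sg, k1])
      linarith

end Vale.Agent.P366FN
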